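import Vale.Agent.P181.TL.Defs
import Vale.Agent.P181.SZR1a.Main
import Vale.Agent.P181.SZR1b.Dim

set_option autoImplicit false

/-!
# P181, TL (T1): the upper bound

The coefficient of a monomial in the variables of the first row is a highest weight polynomial in
the other rows. A symmetric polynomial is determined by the coefficients of one monomial for each
multiset of exponents.
-/

open MvPolynomial

namespace Vale.Agent.P181.TL.H214

open Vale.Agent.P181.T4 (HW rowOp rowOp_apply)
open Vale.Agent.P181.H280 (plethMult)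
open Vale.Agent.P181.SZ
open Vale.Agent.P181.SZ.R1b (coeff_rowOp pm pm_apply pm_apply' pm_pm_symm coeff_pm pinj
  exists_perm_of_map_eq)

variable {k : ℕ} {σ : Type} [Fintype σ]

/-- The exponents outside the first row. -/
noncomputable def rs (u : Fin (k + 1) × σ →₀ ℕ) : Fin k × σ →₀ ℕ :=
  Finsupp.equivFunOnFinite.symm fun p => u (p.1.succ, p.2)

/-- The exponents of the first row. -/
def r0 (u : Fin (k + 1) × σ →₀ ℕ) : σ → ℕ := fun j => u (0, j)

/-- Put a first row. -/
noncomputable def ins (d : σ → ℕ) (v : Fin k × σ →₀ ℕ) : Fin (k + 1) × σ →₀ ℕ :=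
  Finsupp.equivFunOnFinite.symm fun p =>
    Fin.cases (motive := fun _ => ℕ) (d p.2) (fun i => v (i, p.2)) p.1

lemma rs_apply (u : Fin (k + 1) × σ →₀ ℕ) (i : Fin k) (j : σ) : rs u (i, j) = u (i.succ, j) := rfl

lemma ins_zero (d : σ → ℕ) (v : Fin k × σ →₀ ℕ) (j : σ) : ins d v (0, j) = d j := rfl

lemma ins_succ (d : σ → ℕ) (v : Fin k × σ →₀ ℕ) (i : Fin k) (j : σ) :
    ins d v (i.succ, j) = v (i, j) := rfl

lemma ins_rs (u : Fin (k + 1) × σ →₀ ℕ) : ins (r0 u) (rs u) = u := by
  ext ⟨i, j⟩
  refine Fin.cases ?_ (fun i => ?_) i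
  · rw [ins_zero, r0]
  · rw [ins_succ, rs_apply]

lemma rs_ins (d : σ → ℕ) (v : Fin k × σ →₀ ℕ) : rs (ins d v) = v := by
  ext ⟨i, j⟩
  rw [rs_apply, ins_succ]

lemma r0_ins (d : σ → ℕ) (v : Fin k × σ →₀ ℕ) : r0 (ins d v) = d := rfl

open scoped Classical in
/-- The coefficient of `∏ j, X (0, j) ^ d j`. -/
noncomputable def cf (d : σ → ℕ) :
    MvPolynomial (Fin (k + 1) × σ) ℂ →ₗ[ℂ] MvPolynomial (Fin k × σ) ℂ :=
  (basisMonomials (Fin (k + 1) × σ) ℂ).constr ℂ
    fun u => if r0 u = d then monomial (rs u) (1 : ℂ) else 0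

open scoped Classical in
lemma cf_monomial (d : σ → ℕ) (u : Fin (k + 1) × σ →₀ ℕ) (c : ℂ) :
    cf d (monomial u c) = if r0 u = d then monomial (rs u) c else 0 := by
  have h1 : (monomial u c : MvPolynomial (Fin (k + 1) × σ) ℂ) =
      c • basisMonomials (Fin (k + 1) × σ) ℂ u := by
    rw [coe_basisMonomials, smul_monomial, smul_eq_mul, mul_one]
  rw [h1, map_smul, cf, Module.Basis.constr_basis]
  by_cases h : r0 u = d
  · rw [if_pos h, if_pos h, smul_monomial, smul_eq_mul, mul_one]
  · rw [if_neg h, if_neg h, smul_zero]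

lemma coeff_cf (d : σ → ℕ) (f : MvPolynomial (Fin (k + 1) × σ) ℂ) (v : Fin k × σ →₀ ℕ) :
    coeff v (cf d f) = coeff (ins d v) f := by
  classical
  induction f using MvPolynomial.induction_on' with
  | monomial u c =>
    rw [cf_monomial, coeff_monomial]
    by_cases h : r0 u = d
    · rw [if_pos h, coeff_monomial]
      by_cases h1 : rs u = v
      · rw [if_pos h1, if_pos (by rw [← h1, ← h, ins_rs])]
      · rw [if_neg h1, if_neg]
        intro h2
        exact h1 (by rw [h2, rs_ins])
    · rw [if_neg h, coeff_zero, if_neg]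
      intro h2
      exact h (by rw [h2, r0_ins])
  | add p q hp hq => rw [map_add, coeff_add, coeff_add, hp, hq]

lemma ins_move (d : σ → ℕ) (v : Fin k × σ →₀ ℕ) (s i : Fin k) (j : σ) :
    ins d (v - Finsupp.single (s, j) 1 + Finsupp.single (i, j) 1) =
      ins d v - Finsupp.single (s.succ, j) 1 + Finsupp.single (i.succ, j) 1 := by
  classical
  ext ⟨r, l⟩
  have h0 : ∀ t : Fin k, ((t.succ, j) : Fin (k + 1) × σ) ≠ (0, l) := by
    intro t h
    exact Fin.succ_ne_zero t (congrArg Prod.fst h)
  have h1 : ∀ t r : Fin k, (((t.succ, j) : Fin (k + 1) × σ) = (r.succ, l)) ↔ (t, j) = (r, l) := by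
    intro t r
    simp [Prod.ext_iff]
  refine Fin.cases ?_ (fun r => ?_) r
  · rw [ins_zero, Finsupp.add_apply, Finsupp.tsub_apply, ins_zero, Finsupp.single_apply,
      Finsupp.single_apply, if_neg (h0 s), if_neg (h0 i)]
    rfl
  · rw [ins_succ, Finsupp.add_apply, Finsupp.tsub_apply, Finsupp.add_apply, Finsupp.tsub_apply,
      ins_succ]
    simp only [Finsupp.single_apply, h1]

lemma rowOp_cf (d : σ → ℕ) (s i : Fin k) (f : MvPolynomial (Fin (k + 1) × σ) ℂ) :
    rowOp s i (cf d f) = cf d (rowOp s.succ i.succ f) := by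
  classical
  apply MvPolynomial.ext
  intro v
  rw [coeff_cf, coeff_rowOp, coeff_rowOp]
  refine Finset.sum_congr rfl fun j _ => ?_
  have h1 : (v - Finsupp.single (s, j) 1 : Fin k × σ →₀ ℕ) (i, j) =
      (ins d v - Finsupp.single (s.succ, j) 1 : Fin (k + 1) × σ →₀ ℕ) (i.succ, j) := by
    rw [Finsupp.tsub_apply, Finsupp.tsub_apply, ins_succ, Finsupp.single_apply,
      Finsupp.single_apply]
    simp [Prod.ext_iff]
  rw [coeff_cf, ins_move, h1, ins_succ]

lemma cf_mem {mu : Fin (k + 1) → ℕ} {f : MvPolynomial (Fin (k + 1) × σ) ℂ}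
    (hf : f ∈ HW (k + 1) σ mu) (d : σ → ℕ) : cf d f ∈ HW k σ fun i => mu i.succ := by
  refine ⟨fun v hv i => ?_, fun s i hsi => ?_⟩
  · rw [coeff_cf] at hv
    exact hf.1 _ hv i.succ
  · rw [rowOp_cf, hf.2 s.succ i.succ (Fin.succ_lt_succ_iff.2 hsi), map_zero]

/-- A representative of a multiset of exponents. -/
noncomputable def rep {a b : ℕ} (s : Sym (Fin (b + 1)) a) : Fin a → ℕ :=
  fun j => (s.1.toList.get (j.cast (by rw [Multiset.length_toList, s.2])) : Fin (b + 1))

lemma map_rep {a b : ℕ} (s : Sym (Fin (b + 1)) a) :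
    Finset.univ.val.map (rep s) = s.1.map fun x : Fin (b + 1) => (x : ℕ) := by
  have hl : s.1.toList.length = a := by
    rw [Multiset.length_toList, s.2]
  have h1 : Finset.univ.val.map (rep s) =
      (Finset.univ.val.map fun j : Fin s.1.toList.length =>
        ((s.1.toList.get j : Fin (b + 1)) : ℕ)) := by
    have h2 : (Finset.univ : Finset (Fin s.1.toList.length)).val =
        (Finset.univ : Finset (Fin a)).val.map (Fin.castOrderIso hl.symm) := by
      have := congrArg Finset.val
        (Finset.map_univ_equiv (Fin.castOrderIso hl.symm).toEquiv)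
      rw [← this]
      rfl
    rw [h2, Multiset.map_map]
    rfl
  rw [h1]
  conv_rhs => rw [← Multiset.coe_toList s.1]
  rw [Multiset.map_coe]
  have h3 : (Finset.univ : Finset (Fin s.1.toList.length)).val =
      ((List.finRange s.1.toList.length : List _) : Multiset _) := rfl
  rw [h3, Multiset.map_coe]
  congr 1
  apply List.ext_getElem
  · rw [List.length_map, List.length_map, List.length_finRange]
  · intro i h4 h5
    rw [List.getElem_map, List.getElem_map, List.getElem_finRange]
    rfl

/-- **(T1)** -/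
theorem upB : UpB := by
  classical
  intro a b k lam
  refine (R1a a b (k + 1) lam).trans ?_
  let mu : Fin k → ℕ := fun i => lam i.succ.succ
  let L : TI a b (k + 1) (tl lam) →ₗ[ℂ] (Sym (Fin (b + 1)) a → HW k (Fin a) mu) :=
    LinearMap.pi fun s => ((cf (rep s)).comp (TI a b (k + 1) (tl lam)).subtype).codRestrict _
      fun f => cf_mem f.2.1 (rep s)
  have hL : Function.Injective L := by
    rw [← LinearMap.ker_eq_bot, LinearMap.ker_eq_bot']
    rintro ⟨f, hf⟩ h
    apply Subtype.ext
    change f = 0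
    obtain ⟨h1, h2, h3, h4⟩ := hf
    have h5 : ∀ s : Sym (Fin (b + 1)) a, cf (rep s) f = 0 := fun s =>
      congrArg Subtype.val (congrFun h s)
    apply MvPolynomial.ext
    intro v
    rw [coeff_zero]
    by_contra hv
    have hb : ∀ j, v (0, j) < b + 1 := fun j =>
      Nat.lt_succ_of_le ((Finset.single_le_sum (f := fun i => v (i, j))
        (fun _ _ => Nat.zero_le _) (Finset.mem_univ 0)).trans (h3 v hv j))
    let s : Sym (Fin (b + 1)) a := ⟨Finset.univ.val.map fun j => ⟨v (0, j), hb j⟩, by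
      rw [Multiset.card_map, Finset.card_val, Finset.card_univ, Fintype.card_fin]⟩
    have hs : Finset.univ.val.map (fun j => v (0, j)) = Finset.univ.val.map (rep s) := by
      rw [map_rep]
      change _ = Multiset.map (fun x : Fin (b + 1) => (x : ℕ)) (Finset.univ.val.map fun j =>
        (⟨v (0, j), hb j⟩ : Fin (b + 1)))
      rw [Multiset.map_map]
      rfl
    obtain ⟨τ, hτ⟩ := exists_perm_of_map_eq _ _ hs
    have h6 := coeff_pm τ.symm f v
    rw [h2 τ.symm] at h6
    have h7 : pm τ.symm v = ins (rep s) (rs (pm τ.symm v)) := by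
      conv_lhs => rw [← ins_rs (pm τ.symm v)]
      congr 1
      funext j
      rw [r0, pm_apply', Equiv.symm_symm]
      exact (congrFun hτ j).symm
    rw [h7, ← coeff_cf, h5 s, coeff_zero] at h6
    exact hv h6.symm
  have h := LinearMap.finrank_le_finrank_of_injective hL
  rw [Module.finrank_pi_fintype, Finset.sum_const, Finset.card_univ, smul_eq_mul,
    Sym.card_sym_eq_choose, Fintype.card_fin] at h
  have h8 : b + 1 + a - 1 = a + b := by omega
  rwa [h8] at h

end Vale.Agent.P181.TL.H214
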